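import Vale.Agent.P154.Pois.DE.Data.Sl2.Tab0

/-!
# Generations 0 to 4
-/

namespace Vale.P154.PD.Data.Sl2

open Vale.P154.Lat Vale.P154.PD

/-- The start of segment 0. -/
def start0 : Nat × Nat := (408017150480790267233872583949822291940000807169971201297154103651993332701342712984004425257504713434290513981296063016880157105110753088800817018755882563000911287027192607877271397065782532448541659703572391342207372791336878561190779068605687105295612541713338083762922278271230921303805846091951134352883824743918672679536595719102158661139991938483933922884292288442319637886449384303868450283890592166159898645844332600763613184, 0)

/-- A law in segment 0. -/
def mid0_1 : Nat × Nat := (172544304093519481413948110065100126847704805442464269392363640470064210791435832900353007454565652268960939392306822181041598958039813265812681129387968889558725848583866540715862791010570327030247434553700882011775583076456370263815056388212250091632678571221277188553881837114467547515056147983386930051952471750853684020278018962595719339105105398940249568027536247266497493156823374878689968467050741970979473627851016159873960307, 0)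

/-- A law in segment 0. -/
def mid0_2 : Nat × Nat := (108700833555701874051436644737505410015015995710690284054500840236459600601258109446223446770323750941539770309151732076436838045570491988267817003322086303374845392445526487372821936798720499943511435586310046411527049901306019029520340342978184502883126733412253748040878764881286227312405234793412178876729463337382313090408331768882816018902948819539169912038964851827289031185891451790499665601451685477198981399820706259264645227, 0)

/-- A law in segment 0. -/
def mid0_3 : Nat × Nat := (73624524698954707166541223622685707740303434386990794246431747617593634723882649558832137106186597439121162500383587950410619309550833571676120663356809786443852926769503403524262814874128001772522585117956728450744321942016584012124895364819650313224196661488450941676507684923779652987487820566773090002339730923432306739321839423998974760242941249045235717327972588710902310620176165514357586423886525880650833898836950229297147862, 0)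

/-- A law in segment 0. -/
def fin0 : Nat × Nat := (51480822430636853516369059384627316647629031330133474791288445796673346766286825755947117582651218025720383197805241281076945465664925684662343626203839561175909707028508609458607086955994351525537197823166053153771374207314215391244448847952228761003475772706670311508286168681253902016657678596589259094399067632104711784496236810206843406190988107773034217683972497080734906072597546219788644352306306468711504901251727550249764445, 0)

theorem start_ok : pstartOk par0 start0.1 start0.2 = true := by decide +kernel

theorem step0_0 : pstepOk par0 nodeTab0 edgeTab0 start0.1 start0.2
    mid0_1.1 mid0_1.2 = true := by decide +kernel

theorem step0_1 : pstepOk par0 nodeTab0 edgeTab0 mid0_1.1 mid0_1.2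
    mid0_2.1 mid0_2.2 = true := by decide +kernel

theorem step0_2 : pstepOk par0 nodeTab0 edgeTab0 mid0_2.1 mid0_2.2
    mid0_3.1 mid0_3.2 = true := by decide +kernel

theorem step0_3 : pstepOk par0 nodeTab0 edgeTab0 mid0_3.1 mid0_3.2
    fin0.1 fin0.2 = true := by decide +kernel


end Vale.P154.PD.Data.Sl2
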