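import Vale.Agent.P154.Pois.DE.Data.Sl2.Tab0

/-!
# Generations 4 to 8
-/

namespace Vale.P154.PD.Data.Sl2

open Vale.P154.Lat Vale.P154.PD

/-- The start of segment 1. -/
def start1 : Nat × Nat := (51480822430636853516369059384627316647629031330133474791288445796673346766286825755947117582651218025720383197805241281076945465664925684662343626203839561175909707028508609458607086955994351525537197823166053153771374207314215391244448847952228761003475772706670311508286168681253902016657678596589259094399067632104711784496236810206843406190988107773034217683972497080734906072597546219788644352306306468711504901251727550249764445, 0)

/-- A law in segment 1. -/
def mid1_1 : Nat × Nat := (36589716056427934387294442555969348016022732324515503796830102127874180939787250238711219607113448646381957897218961642761703500966096706085019314253807691059700471988346782888446178326998568122834760327524808258453391403964792471353515436241074017190791803089151967842144108043570689992563176842236016228043315736949591216410209725020127990866883683632948937981582445022539655398404267353512682871372916738962236243703115003656226902, 0)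

/-- A law in segment 1. -/
def mid1_2 : Nat × Nat := (26216870830142639406462620507429643673968400818255859204150212284455230358313247567655461921597948344738391533547256421161869531770811486895218351023988116895802620545414285741287414208419496689625458165638448639099618282957282643533002152480395217613995723807047003296943237854593920384727682986080114052071123672773366341629046222676508465310337434904569068925394025651246407183051192472113944912935960963601832648568529132818532535, 0)

/-- A law in segment 1. -/
def mid1_3 : Nat × Nat := (18862185867388085906765309712128374054917968521909595787373206089939986578106306269278000210313037210024535476651214904103872421882980313095588879874695210468050602887709161585047916956054863661182679540765092065230810460379149944736357709708500263835996932944802990891651409644397107656728821458927281638232153456001068966210681140989360049815026014796414582112989079180032697709090905516770478065841547718293021402012706420620197097, 0)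

/-- A law in segment 1. -/
def fin1 : Nat × Nat := (13606093104949819006782553774274395715415336129404173109097429088144555134089923860004925179746793148322784772565912013023329209036851226785840948485500690381837626511519596758554121078329875568768430546809704684354756113799102071349051417667589273072571649427981914552121241250912030186825436992105160848501596253696269354145438571116035377727927853452115906383162267543930029736781616852818710176077829225302822611317088641687905022, 0)

theorem step1_0 : pstepOk par0 nodeTab0 edgeTab0 start1.1 start1.2
    mid1_1.1 mid1_1.2 = true := by decide +kernel

theorem step1_1 : pstepOk par0 nodeTab0 edgeTab0 mid1_1.1 mid1_1.2
    mid1_2.1 mid1_2.2 = true := by decide +kernel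

theorem step1_2 : pstepOk par0 nodeTab0 edgeTab0 mid1_2.1 mid1_2.2
    mid1_3.1 mid1_3.2 = true := by decide +kernel

theorem step1_3 : pstepOk par0 nodeTab0 edgeTab0 mid1_3.1 mid1_3.2
    fin1.1 fin1.2 = true := by decide +kernel


end Vale.P154.PD.Data.Sl2
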