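import Vale.Agent.P154.Pois.DE.Data.Sl2.Tab0

/-!
# Generations 8 to 12
-/

namespace Vale.P154.PD.Data.Sl2

open Vale.P154.Lat Vale.P154.PD

/-- The start of segment 2. -/
def start2 : Nat × Nat := (13606093104949819006782553774274395715415336129404173109097429088144555134089923860004925179746793148322784772565912013023329209036851226785840948485500690381837626511519596758554121078329875568768430546809704684354756113799102071349051417667589273072571649427981914552121241250912030186825436992105160848501596253696269354145438571116035377727927853452115906383162267543930029736781616852818710176077829225302822611317088641687905022, 0)

/-- A law in segment 2. -/
def mid2_1 : Nat × Nat := (9839861748639630967031611218750953509639413195319459208807953866312893380895970071255104494973872341806149371391642455984645489592860719576796178839889801025821537547803876825598470988635846648208238202348638235742388950663164202940859481947967898862599033399537247773521515953833006123535460074143852437913055485666377648536319363491397220797214041530957090533779796702240609577776502175529120116308737534083250178636266599307966966, 0)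

/-- A law in segment 2. -/
def mid2_2 : Nat × Nat := (7140622424520748337718138701165131479908326653729181350980566317310192249619172756583661271731746216093194280844457173765336786228937142860541101389945027444365917604843916115188382240098772466049892467233806733055449406848543194841543657063393256760102232107082338689091066195424751435488982598646629248164789352575550388335790137264016649728030148913808323821391341340445162877489656413686309339276290235637989990261384475281506109, 0)

/-- A law in segment 2. -/
def mid2_3 : Nat × Nat := (5206775108482676594427914457986387674383358788874005228318264415976328994695720890636696452847649782825174731156545273317720876357842958884359593203287999624104573874011220678266657833669682199835191312555528596191420870158120663672026790796075927781329816719509675855043923933180503608038553454585553749127838279094404381722416566759882241504419657158261883679758846557554017033734834858072086222277034939172121027463465774719836652, 0)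

/-- A law in segment 2. -/
def fin2 : Nat × Nat := (3820853502371426458356439184160474537954574694946096091855688830975106088184077426058412783031319937794537425855890231504623666853790106195903560765974368963651146142029701234154203460114533938180935896472381492805374287963778298911284142662730965730359864831781277873402689882163650108366022969347902626260554595709555830127743411622669952586449869661225268771206187541578705303778848459288525231446115728750765155763241357060805690, 0)

theorem step2_0 : pstepOk par0 nodeTab0 edgeTab0 start2.1 start2.2
    mid2_1.1 mid2_1.2 = true := by decide +kernel

theorem step2_1 : pstepOk par0 nodeTab0 edgeTab0 mid2_1.1 mid2_1.2
    mid2_2.1 mid2_2.2 = true := by decide +kernel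

theorem step2_2 : pstepOk par0 nodeTab0 edgeTab0 mid2_2.1 mid2_2.2
    mid2_3.1 mid2_3.2 = true := by decide +kernel

theorem step2_3 : pstepOk par0 nodeTab0 edgeTab0 mid2_3.1 mid2_3.2
    fin2.1 fin2.2 = true := by decide +kernel


end Vale.P154.PD.Data.Sl2
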