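import Vale.Agent.P154.Pois.DE.Data.Sl2.Tab0

/-!
# Generations 12 to 16
-/

namespace Vale.P154.PD.Data.Sl2

open Vale.P154.Lat Vale.P154.PD

/-- The start of segment 3. -/
def start3 : Nat × Nat := (3820853502371426458356439184160474537954574694946096091855688830975106088184077426058412783031319937794537425855890231504623666853790106195903560765974368963651146142029701234154203460114533938180935896472381492805374287963778298911284142662730965730359864831781277873402689882163650108366022969347902626260554595709555830127743411622669952586449869661225268771206187541578705303778848459288525231446115728750765155763241357060805690, 0)

/-- A law in segment 3. -/
def mid3_1 : Nat × Nat := (2825978857940167331135117114710187551183937850183290704528286759708858508428220207994956199442882123822106088535321943771317196012079040225582625529873566768569626846842005099337393476863387045229007469157561680627215487146549530824955234768878404838223238695258226779882090723859970944300935711474013291941696030982333205523063830879545093067254709534954758628335054732789073560717753349814976769732684768640557228068145691961090489, 0)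

/-- A law in segment 3. -/
def mid3_2 : Nat × Nat := (2109637790305973951166876583973142826975376179176753955759832156142124021391166783896546031452300307703017621079407759454868381826634851235363390410705008120544125139489007515755775974879636469444026346486476333139132214091813997708488137764439683005930216761923471976064416551024400851869488268268723784598431313356510608035505305483792092910014000846469751654460170763151235161054658824277804019767720671560630358086362674613722248, 0)

/-- A law in segment 3. -/
def mid3_3 : Nat × Nat := (1591435953007660343076617072039306584624867268624428203252490572237352090932808534809622824771003714982400873790073780620857379277536827603338072973094847999327464682193756719226279507928728065636078784089834853827546821818946857986238529652567935596404581676475236979264120531319576890979568363212063487355190518728929005221750582711577301582052071308253071240400996866372171492799540067494356660442072228542393987796696061468629396, 0)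

/-- A law in segment 3. -/
def fin3 : Nat × Nat := (1214365086611867220718446088746571577334051248813993044824072270685527102904780826166580135553284110960801556736914816073753907786402956869652022634350322988565040206785007083434220053282715203053466536793373920455167798713290471390650196073437191192688790178675742043542125013745195802604375923500298567233052472276568143748260535804986537685420719868373630008295785118408736747408218464913480652639531416921894925167335105098262578, 0)

theorem step3_0 : pstepOk par0 nodeTab0 edgeTab0 start3.1 start3.2
    mid3_1.1 mid3_1.2 = true := by decide +kernel

theorem step3_1 : pstepOk par0 nodeTab0 edgeTab0 mid3_1.1 mid3_1.2
    mid3_2.1 mid3_2.2 = true := by decide +kernel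

theorem step3_2 : pstepOk par0 nodeTab0 edgeTab0 mid3_2.1 mid3_2.2
    mid3_3.1 mid3_3.2 = true := by decide +kernel

theorem step3_3 : pstepOk par0 nodeTab0 edgeTab0 mid3_3.1 mid3_3.2
    fin3.1 fin3.2 = true := by decide +kernel


end Vale.P154.PD.Data.Sl2
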