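import Vale.Agent.P154.Pois.DE.Data.Sl2.Tab0

/-!
# Generations 16 to 20
-/

namespace Vale.P154.PD.Data.Sl2

open Vale.P154.Lat Vale.P154.PD

/-- The start of segment 4. -/
def start4 : Nat × Nat := (1214365086611867220718446088746571577334051248813993044824072270685527102904780826166580135553284110960801556736914816073753907786402956869652022634350322988565040206785007083434220053282715203053466536793373920455167798713290471390650196073437191192688790178675742043542125013745195802604375923500298567233052472276568143748260535804986537685420719868373630008295785118408736747408218464913480652639531416921894925167335105098262578, 0)

/-- A law in segment 4. -/
def mid4_1 : Nat × Nat := (938019319915099907783493747741097450904508500169420707552986009975321597907525643789233922378174175429656126921116375626885516362023163435827452302591913757063415551314963633261700698839270434898443977538816046597104485066885978339529035103382559302698312888897567085386732315572729735688378854295825123734017480827895365515442437964345384806184241274380587361789249291284522070641557016042667329956404052360597610150831958483225444, 0)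

/-- A law in segment 4. -/
def mid4_2 : Nat × Nat := (733920302767681176160915871790216895419034909513456357013174967048406932601307587124518204008608488541490059879062875812483199083996618005812779784940297965034535671632180083142093566747926562655820471955484638392236719567366420922275906628834516573792220900447058551563519730624284059110980340052163052281631853352952265544616568010964807148646695892003601629450586930870213761644637782802170984429971027534666455388873145897403036, 0)

/-- A law in segment 4. -/
def mid4_3 : Nat × Nat := (581905984211561432763498761396607930515137198726315109966045074994754023516488672160399812997323036081451246474639843356221087086035448742339438667847473038129042055348616800116589132934330808723714061998141082734864197289670801066540335141076064609827597501872263226475499307661554834946872988549241936238873735554168249083661693247754691047414871308587179009363978440010291456155895060323461359888913039067372774889903786187043277, 0)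

/-- A law in segment 4. -/
def fin4 : Nat × Nat := (467669083515430506008769127258254804817642809642846560327057504511293641354037502917365455976038049161151583496867867798495927998908707552422930012427233998779611263357993152584605116192593708084709998503533752452115827197672512768020018641399645062074548114078232567938533948172798798253348847934112279819471736189828529004051428798678336002894967932339774341650195902487937070972591213344260335979309683574517925898439573033400042, 0)

theorem step4_0 : pstepOk par0 nodeTab0 edgeTab0 start4.1 start4.2
    mid4_1.1 mid4_1.2 = true := by decide +kernel

theorem step4_1 : pstepOk par0 nodeTab0 edgeTab0 mid4_1.1 mid4_1.2
    mid4_2.1 mid4_2.2 = true := by decide +kernel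

theorem step4_2 : pstepOk par0 nodeTab0 edgeTab0 mid4_2.1 mid4_2.2
    mid4_3.1 mid4_3.2 = true := by decide +kernel

theorem step4_3 : pstepOk par0 nodeTab0 edgeTab0 mid4_3.1 mid4_3.2
    fin4.1 fin4.2 = true := by decide +kernel


end Vale.P154.PD.Data.Sl2
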