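import Vale.Agent.P154.Pois.DE.Data.Sl2.Tab0

/-!
# Generations 20 to 24
-/

namespace Vale.P154.PD.Data.Sl2

open Vale.P154.Lat Vale.P154.PD

/-- The start of segment 5. -/
def start5 : Nat × Nat := (467669083515430506008769127258254804817642809642846560327057504511293641354037502917365455976038049161151583496867867798495927998908707552422930012427233998779611263357993152584605116192593708084709998503533752452115827197672512768020018641399645062074548114078232567938533948172798798253348847934112279819471736189828529004051428798678336002894967932339774341650195902487937070972591213344260335979309683574517925898439573033400042, 0)

/-- A law in segment 5. -/
def mid5_1 : Nat × Nat := (381057345821014719419880162515778868682261205928605696663899198838035169707538015833513947706068245298571558458824522236287978179153083651499253173656446994187455819107134693160399232967559956479605958935878095129578580821353566355566718975341872823256420660561719137218675228265749717642699673753917401893885597103908833979941927958215994565225925064182432011546448158274687741700079155472341227848647674298640076939289898019435875, 0)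

/-- A law in segment 5. -/
def mid5_2 : Nat × Nat := (314772451398513403290143967492670835907430429041649913176625455289746421778976537997372150800205553477116765014199139279989262014432692648349425933796312420279800906298270389908342668444322209851906386945992811084387252282001781660759069867146408721176453211038526937255507364681236735144088525443618440416659292922946748573105657474000136997067194926398629212072172096392052200775696188131972328013251899676338588653523386836393524, 0)

/-- A law in segment 5. -/
def mid5_3 : Nat × Nat := (263585812480787244710041539238676607246126909210509766717878380298516907891788466037383737522589490259485955025453952833481075267534581128028317745686104646825363780995500151287210485733788873031412416056022323041662606904489612337267056398210500422323670142452525020709740747718953858233367707411872299386447689352525784487692829116646817801487376460007218345422155200246341752531845029384979076675717243257478867372155042930931864, 0)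

/-- A law in segment 5. -/
def fin5 : Nat × Nat := (223700448407833992693893999370339509616134112832409027449985927892972347201912228045103785997797567173120876479787965801578713070752866930820437442010882741529522572962768217413306893884081264962038803786697656505233236500996654123375603338869019474123671623261523410202995757889177751129728342467442277621225613311305159659825648382554522638707329966946274321588833250415201315561184035055451493315720060588238635098842687571061774, 0)

theorem step5_0 : pstepOk par0 nodeTab0 edgeTab0 start5.1 start5.2
    mid5_1.1 mid5_1.2 = true := by decide +kernel

theorem step5_1 : pstepOk par0 nodeTab0 edgeTab0 mid5_1.1 mid5_1.2
    mid5_2.1 mid5_2.2 = true := by decide +kernel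

theorem step5_2 : pstepOk par0 nodeTab0 edgeTab0 mid5_2.1 mid5_2.2
    mid5_3.1 mid5_3.2 = true := by decide +kernel

theorem step5_3 : pstepOk par0 nodeTab0 edgeTab0 mid5_3.1 mid5_3.2
    fin5.1 fin5.2 = true := by decide +kernel


end Vale.P154.PD.Data.Sl2
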