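import Vale.Agent.P154.Pois.DE.Data.Sl2.Switch0
import Vale.Agent.P154.Pois.DE.Data.Sl2.Tab0
import Vale.Agent.P154.Pois.DE.Data.Sl2.Tab1

/-!
# Change of phase at generation 24
-/

namespace Vale.P154.PD.Data.Sl2

open Vale.P154.Lat Vale.P154.PD

/-- The start of segment 6. -/
def start6 : Nat × Nat := (223700448407833992693893999370339509616134112832409027449985927892972347201912228045103785997797567173120876479787965801578713070752866930820437442010882741529522572962768217413306893884081264962038803786697656505233236500996654123375603338869019474123671623261523410202995757889177751129728342467442277621225613311305159659825648382554522638707329966946274321588833250415201315561184035055451493315720060588238635098842687571061774, 0)

/-- A law in segment 6. -/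
def fin6 : Nat × Nat := (24267087523420675445983160860239974453772443100254275570070692598784859557320279806328284605502782218327252696329504815280548605302496475307846401644638986169848600427142637610260240064797930482038505224279355015939567292494442670583323395840640633036779018225020926566370428268417847211177230116889600378532071202174230119679581371301603030738456435739526916911003026718678431207047779246347924811239768368868675224603674185223461248196006831123889580674549791304315337552364325033518225762352120105218112893968429633844185937397893315901739164008180065523969352219079387152427932799843843296635237035518245465626063687479989542519532758866324202196974891453706007144767079768779720970367795769175863432461550466532115398389125760433993839510695825518837444439735143419545458459887273514976776127338292890028177463872261484232675614043599882925730712707984771507206367879841895058861470519238415630265132312611932352670897299817911604249826892579697795981806836468084304343251370220016827975477507246877152278222039443628205295820037597819617549031781972825139753960088365329804276677855280443349466440108141268600137984401832788386468026839331723494643625100021651532893062872049691785726059984248776431537786216593046789816588925228039729464915425087836218660641890349746832349837504716652462922301507186419331184924466412607299882198670127077247004264400948669540719976738695191527322441668170379268609371150, 0)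

theorem sw6 : pswOk par0 par1 swTab0 start6.1 start6.2 fin6.1 fin6.2 = true := by
  decide +kernel

end Vale.P154.PD.Data.Sl2
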